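import Mathlib

/-! # P330: half of the gates of a generalized circuit can always be satisfied -/

namespace Vale.Agent.P330

/-- the gates of a generalized circuit, without their output nodes -/
inductive Gate (V : Type)
  | const (α : ℝ) : Gate V
  | scale (α : ℝ) (a : V) : Gate V
  | copy (a : V) : Gate V
  | add (a b : V) : Gate V
  | sub (a b : V) : Gate V
  | less (a b : V) : Gate V
  | not (a : V) : Gate V
  | or (a b : V) : Gate V
  | and (a b : V) : Gate V

/-- the gate `g` with output node `z` is `ε`-satisfied by the assignment `x` -/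
def Sat {V : Type} (ε : ℝ) (x : V → ℝ) (z : V) : Gate V → Prop
  | .const α => |x z - α| ≤ ε
  | .scale α a => |x z - α * x a| ≤ ε
  | .copy a => |x z - x a| ≤ ε
  | .add a b => |x z - min (x a + x b) 1| ≤ ε
  | .sub a b => |x z - max (x a - x b) 0| ≤ ε
  | .less a b => (x a < x b - ε → 1 - ε ≤ x z) ∧ (x b + ε < x a → x z ≤ ε)
  | .not a => (x a ≤ ε → 1 - ε ≤ x z) ∧ (1 - ε ≤ x a → x z ≤ ε)
  | .or a b => (1 - ε ≤ x a ∨ 1 - ε ≤ x b → 1 - ε ≤ x z) ∧ (x a ≤ ε ∧ x b ≤ ε → x z ≤ ε)
  | .and a b => (1 - ε ≤ x a ∧ 1 - ε ≤ x b → 1 - ε ≤ x z) ∧ (x a ≤ ε ∨ x b ≤ ε → x z ≤ ε)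

/-- A generalized circuit: each node is the output of at most one gate. -/
structure Circuit (V : Type) where
  /-- the gate with output `z`, if there is one -/
  gate : V → Option (Gate V)
  const_mem : ∀ z α, gate z = some (.const α) → 0 ≤ α ∧ α ≤ 1

variable {V : Type}

/-- constant gates and negations -/
def Hard : Gate V → Prop
  | .const _ => True
  | .not _ => True
  | _ => False

theorem sat_zero {ε : ℝ} (h0 : 0 ≤ ε) (h1 : ε < 1) (z : V) (g : Gate V) (hg : ¬ Hard g) :
    Sat ε (fun _ => 0) z g := by
  cases g with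
  | const α => exact (hg trivial).elim
  | not a => exact (hg trivial).elim
  | scale α a => simpa [Sat] using h0
  | copy a => simpa [Sat] using h0
  | add a b => simpa [Sat] using h0
  | sub a b => simpa [Sat] using h0
  | less a b => exact ⟨fun h => by linarith, fun h => by linarith⟩
  | or a b => exact ⟨fun h => by rcases h with h | h <;> linarith, fun _ => h0⟩
  | and a b => exact ⟨fun h => by linarith [h.1], fun _ => h0⟩

open Classical in
/-- the input of a negation, otherwise the node itself -/
noncomputable def prev (c : Circuit V) (z : V) : V :=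
  if h : ∃ a, c.gate z = some (.not a) then h.choose else z

/-- `z` is the output of a negation -/
def IsNot (c : Circuit V) (z : V) : Prop := ∃ a, c.gate z = some (.not a)

theorem prev_eq {c : Circuit V} {z a : V} (h : c.gate z = some (.not a)) : prev c z = a := by
  have hex : ∃ a, c.gate z = some (.not a) := ⟨a, h⟩
  unfold prev
  rw [dif_pos hex]
  exact (Gate.not.inj (Option.some.inj (h.symm.trans hex.choose_spec))).symm

open Classical in
/-- values of the nodes which are not outputs of negations -/
noncomputable def base (c : Circuit V) (z : V) : ℝ :=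
  if h : ∃ α, c.gate z = some (.const α) then h.choose else 0

/-- alternation -/
def alt (k : ℕ) (y : ℝ) : ℝ := if k % 2 = 0 then y else 1 - y

open Classical in
/-- the assignment satisfying all constants and negations -/
noncomputable def chain (c : Circuit V) (z : V) : ℝ :=
  if h : ∃ k : ℕ, ¬ IsNot c ((prev c)^[k] z) then
    alt (Nat.find h) (base c ((prev c)^[Nat.find h] z)) else 1 / 2

theorem base_mem (c : Circuit V) (z : V) : 0 ≤ base c z ∧ base c z ≤ 1 := by
  unfold base
  split_ifs with h
  · exact c.const_mem z _ h.choose_spec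
  · norm_num

theorem chain_mem (c : Circuit V) (z : V) : 0 ≤ chain c z ∧ chain c z ≤ 1 := by
  classical
  unfold chain
  split_ifs with h
  · have h1 := base_mem c ((prev c)^[Nat.find h] z)
    unfold alt
    split_ifs
    · exact h1
    · constructor <;> linarith [h1.1, h1.2]
  · norm_num

theorem chain_not {c : Circuit V} {z a : V} (h : c.gate z = some (.not a)) :
    chain c z = 1 - chain c a := by
  classical
  have hz : IsNot c z := ⟨a, h⟩
  have hp : prev c z = a := prev_eq h
  have hit : ∀ k, (prev c)^[k + 1] z = (prev c)^[k] a := fun k => by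
    rw [Function.iterate_succ_apply, hp]
  by_cases hex : ∃ k : ℕ, ¬ IsNot c ((prev c)^[k] a)
  · have hex' : ∃ k : ℕ, ¬ IsNot c ((prev c)^[k] z) := by
      obtain ⟨k, hk⟩ := hex
      exact ⟨k + 1, by rw [hit]; exact hk⟩
    have hfind : Nat.find hex' = Nat.find hex + 1 := by
      rw [Nat.find_eq_iff]
      constructor
      · rw [hit]
        exact Nat.find_spec hex
      · intro k hk
        rw [not_not]
        rcases k with _ | k
        · exact hz
        · rw [hit]
          have := Nat.find_min hex (m := k) (by omega)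
          rwa [not_not] at this
    unfold chain
    rw [dif_pos hex', dif_pos hex, hfind, hit]
    unfold alt
    rcases Nat.even_or_odd' (Nat.find hex) with ⟨m, hm | hm⟩
    · rw [if_neg (by omega), if_pos (by omega)]
    · rw [if_pos (by omega), if_neg (by omega)]
      ring
  · have hex' : ¬ ∃ k : ℕ, ¬ IsNot c ((prev c)^[k] z) := by
      rintro ⟨k, hk⟩
      rcases k with _ | k
      · exact hk hz
      · rw [hit] at hk
        exact hex ⟨k, hk⟩
    unfold chain
    rw [dif_neg hex', dif_neg hex]
    norm_num

theorem chain_const {c : Circuit V} {z : V} {α : ℝ} (h : c.gate z = some (.const α)) :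
    chain c z = α := by
  classical
  have hz : ¬ IsNot c z := by
    rintro ⟨a, ha⟩
    rw [h] at ha
    injection ha with ha
    injection ha
  have hex : ∃ k : ℕ, ¬ IsNot c ((prev c)^[k] z) := ⟨0, hz⟩
  have hfind : Nat.find hex = 0 := by
    rw [Nat.find_eq_zero]
    exact hz
  unfold chain
  rw [dif_pos hex, hfind]
  change (if 0 % 2 = 0 then base c z else 1 - base c z) = α
  rw [if_pos rfl]
  have hex' : ∃ α, c.gate z = some (.const α) := ⟨α, h⟩
  unfold base
  rw [dif_pos hex']
  exact (Gate.const.inj (Option.some.inj (h.symm.trans hex'.choose_spec))).symm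

theorem sat_chain {ε : ℝ} (h0 : 0 ≤ ε) (c : Circuit V) (z : V) (g : Gate V)
    (hz : c.gate z = some g) (hg : Hard g) : Sat ε (chain c) z g := by
  cases g with
  | const α =>
    change |chain c z - α| ≤ ε
    rw [chain_const hz, sub_self, abs_zero]
    exact h0
  | not a =>
    have h := chain_not hz
    exact ⟨fun h1 => by rw [h]; linarith, fun h1 => by rw [h]; linarith⟩
  | _ => exact hg.elim

open Classical in
/-- the output nodes of the gates -/
noncomputable def outputs [Fintype V] (c : Circuit V) : Finset V :=
  Finset.univ.filter fun z => ∃ g, c.gate z = some g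

open Classical in
/-- the output nodes of the `ε`-satisfied gates -/
noncomputable def satisfied [Fintype V] (c : Circuit V) (ε : ℝ) (x : V → ℝ) : Finset V :=
  Finset.univ.filter fun z => ∃ g, c.gate z = some g ∧ Sat ε x z g

/-- **Half.** One of the two assignments satisfies at least half of the gates. -/
theorem half [Fintype V] (c : Circuit V) : ∃ x : V → ℝ, (x = (fun _ => 0) ∨ x = chain c) ∧
    (∀ z, 0 ≤ x z ∧ x z ≤ 1) ∧ ∀ ε : ℝ, 0 ≤ ε → ε < 1 →
      (outputs c).card ≤ 2 * (satisfied c ε x).card := by
  classical
  set A : Finset V := Finset.univ.filter fun z => ∃ g, c.gate z = some g ∧ Hard g with hA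
  set B : Finset V := Finset.univ.filter fun z => ∃ g, c.gate z = some g ∧ ¬ Hard g with hB
  have hsub : outputs c ⊆ A ∪ B := by
    intro z hz
    obtain ⟨g, hg⟩ := (Finset.mem_filter.1 hz).2
    by_cases h : Hard g
    · exact Finset.mem_union_left _ (Finset.mem_filter.2 ⟨Finset.mem_univ _, g, hg, h⟩)
    · exact Finset.mem_union_right _ (Finset.mem_filter.2 ⟨Finset.mem_univ _, g, hg, h⟩)
  have hcard : (outputs c).card ≤ A.card + B.card :=
    (Finset.card_le_card hsub).trans (Finset.card_union_le _ _)
  rcases le_total A.card B.card with h | h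
  · refine ⟨fun _ => 0, Or.inl rfl, fun _ => by norm_num, fun ε h0 h1 => ?_⟩
    have h2 : B ⊆ satisfied c ε fun _ => 0 := by
      intro z hz
      obtain ⟨g, hg, hn⟩ := (Finset.mem_filter.1 hz).2
      exact Finset.mem_filter.2 ⟨Finset.mem_univ _, g, hg, sat_zero h0 h1 z g hn⟩
    have := Finset.card_le_card h2
    omega
  · refine ⟨chain c, Or.inr rfl, chain_mem c, fun ε h0 _ => ?_⟩
    have h2 : A ⊆ satisfied c ε (chain c) := by
      intro z hz
      obtain ⟨g, hg, hn⟩ := (Finset.mem_filter.1 hz).2
      exact Finset.mem_filter.2 ⟨Finset.mem_univ _, g, hg, sat_chain h0 c z g hg hn⟩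
    have := Finset.card_le_card h2
    omega

/-- `y` is one of `0`, `1`, `1/2`, `α`, `1 - α` for a parameter `α` of a constant gate -/
def Simple (c : Circuit V) (y : ℝ) : Prop :=
  y = 0 ∨ y = 1 ∨ y = 1 / 2 ∨ ∃ z α, c.gate z = some (.const α) ∧ (y = α ∨ y = 1 - α)

theorem simple_chain (c : Circuit V) (z : V) : Simple c (chain c z) := by
  classical
  unfold chain
  split_ifs with h
  · generalize (prev c)^[Nat.find h] z = w
    unfold base alt
    split_ifs with h1 h2 h2
    · exact Or.inr (Or.inr (Or.inr ⟨w, _, h2.choose_spec, Or.inl rfl⟩))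
    · exact Or.inl rfl
    · exact Or.inr (Or.inr (Or.inr ⟨w, _, h2.choose_spec, Or.inr rfl⟩))
    · exact Or.inr (Or.inl (by norm_num))
  · exact Or.inr (Or.inr (Or.inl rfl))

end Vale.Agent.P330
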